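import Mathlib

set_option autoImplicit false

namespace Vale.Agent.Helpers.BernsteinZero

open Polynomial Finset

/-- positive extremal nodes of the Chebyshev polynomial of odd order `2k+1` -/
noncomputable def nd (k j : ℕ) : ℝ := Real.cos (j * Real.pi / (2 * k + 1))

/-- squared nodes -/
noncomputable def sq (k j : ℕ) : ℝ := (nd k j) ^ 2

theorem angle_nonneg (k j : ℕ) : 0 ≤ (j : ℝ) * Real.pi / (2 * k + 1) := by
  have := Real.pi_pos
  positivity

theorem angle_lt (k j : ℕ) (hj : j ≤ k) : (j : ℝ) * Real.pi / (2 * k + 1) < Real.pi / 2 := by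
  have hpi := Real.pi_pos
  have hjk : (j : ℝ) ≤ k := by exact_mod_cast hj
  rw [div_lt_div_iff₀ (by positivity) (by norm_num)]
  nlinarith

theorem nd_pos {k j : ℕ} (hj : j ≤ k) : 0 < nd k j := by
  apply Real.cos_pos_of_mem_Ioo
  constructor
  · have := angle_nonneg k j
    have := Real.pi_pos
    linarith
  · exact angle_lt k j hj

theorem nd_le_one (k j : ℕ) : nd k j ≤ 1 := Real.cos_le_one _

theorem nd_lt {k i j : ℕ} (hij : i < j) (hj : j ≤ k) : nd k j < nd k i := by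
  apply Real.cos_lt_cos_of_nonneg_of_le_pi_div_two (angle_nonneg k i) (angle_lt k j hj).le
  have hpi := Real.pi_pos
  have : (i : ℝ) < j := by exact_mod_cast hij
  apply div_lt_div_of_pos_right _ (by positivity)
  nlinarith

theorem sq_pos {k j : ℕ} (hj : j ≤ k) : 0 < sq k j := by
  have := nd_pos hj
  unfold sq
  positivity

theorem sq_lt {k i j : ℕ} (hij : i < j) (hj : j ≤ k) : sq k j < sq k i := by
  have h1 := nd_lt hij hj
  have h2 := nd_pos hj
  unfold sq
  nlinarith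

theorem sq_injOn (k : ℕ) : Set.InjOn (sq k) (↑(range (k + 1)) : Set ℕ) := by
  intro a ha b hb hab
  have ha' : a ≤ k := by
    have := Finset.mem_range.mp (Finset.mem_coe.mp ha); omega
  have hb' : b ≤ k := by
    have := Finset.mem_range.mp (Finset.mem_coe.mp hb); omega
  by_contra hne
  rcases lt_or_gt_of_ne hne with h | h
  · exact absurd hab (ne_of_gt (sq_lt h hb'))
  · exact absurd hab (ne_of_lt (sq_lt h ha'))

/-- value at `0` of the interpolation basis polynomial -/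
noncomputable def Lw (k j : ℕ) : ℝ := (Lagrange.basis (range (k + 1)) (sq k) j).eval 0

theorem prod_sign (S : Finset ℕ) (a : ℕ → ℝ) (h : ∀ l ∈ S, a l ≤ 0) :
    0 ≤ (-1 : ℝ) ^ S.card * ∏ l ∈ S, a l := by
  classical
  induction S using Finset.induction_on with
  | empty => simp
  | insert x S hx ih =>
    rw [Finset.card_insert_of_notMem hx, Finset.prod_insert hx]
    have h1 : a x ≤ 0 := h x (Finset.mem_insert_self _ _)
    have h2 := ih (fun l hl => h l (Finset.mem_insert_of_mem hl))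
    have e : (-1 : ℝ) ^ (S.card + 1) * (a x * ∏ l ∈ S, a l)
        = (-a x) * ((-1 : ℝ) ^ S.card * ∏ l ∈ S, a l) := by ring
    rw [e]
    exact mul_nonneg (by linarith) h2

theorem sign_Lw {k j : ℕ} (hj : j ≤ k) : 0 ≤ (-1 : ℝ) ^ (j + k) * Lw k j := by
  have hsplit : (range (k + 1)).erase j = range j ∪ Ioc j k := by
    ext l
    simp only [mem_erase, mem_range, mem_union, mem_Ioc]
    omega
  have hdisj : Disjoint (range j) (Ioc j k) := by
    rw [Finset.disjoint_left]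
    intro l h1 h2
    simp only [mem_range] at h1
    simp only [mem_Ioc] at h2
    omega
  unfold Lw
  rw [Lagrange.basis, eval_prod, hsplit, prod_union hdisj]
  have h1 : 0 ≤ ∏ l ∈ range j, (Lagrange.basisDivisor (sq k j) (sq k l)).eval 0 := by
    apply prod_nonneg
    intro l hl
    have hlj : l < j := mem_range.mp hl
    have hs := sq_lt hlj hj
    have hp := sq_pos (k := k) (j := l) (by omega)
    simp only [Lagrange.basisDivisor, eval_mul, eval_C, eval_sub, eval_X]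
    have : (sq k j - sq k l)⁻¹ ≤ 0 := inv_nonpos.mpr (by linarith)
    nlinarith
  have h2 := prod_sign (Ioc j k) (fun l => (Lagrange.basisDivisor (sq k j) (sq k l)).eval 0) (by
    intro l hl
    have hl' := mem_Ioc.mp hl
    have hs := sq_lt hl'.1 hl'.2
    have hp := sq_pos hl'.2
    simp only [Lagrange.basisDivisor, eval_mul, eval_C, eval_sub, eval_X]
    have : 0 ≤ (sq k j - sq k l)⁻¹ := inv_nonneg.mpr (by linarith)
    nlinarith)
  rw [Nat.card_Ioc] at h2
  have e : (-1 : ℝ) ^ (j + k) = (-1 : ℝ) ^ (k - j) := by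
    have : j + k = (k - j) + 2 * j := by omega
    rw [this, pow_add, pow_mul]
    simp
  rw [e]
  have e2 : ∀ A B : ℝ, (-1 : ℝ) ^ (k - j) * (A * B) = A * ((-1 : ℝ) ^ (k - j) * B) := by
    intro A B; ring
  rw [e2]
  exact mul_nonneg h1 h2

theorem eval_zero_eq (k : ℕ) (r : ℝ[X]) (hdeg : r.degree < ((k + 1 : ℕ) : WithBot ℕ)) :
    r.eval 0 = ∑ j ∈ range (k + 1), r.eval (sq k j) * Lw k j := by
  have h := Lagrange.eq_interpolate (s := range (k + 1)) (v := sq k) (f := r) (sq_injOn k)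
    (by simpa using hdeg)
  conv_lhs => rw [h]
  simp only [Lagrange.interpolate_apply, eval_finsetSum, eval_mul, eval_C, Lw]

/-- comparison of values at `0` -/
theorem compare (k : ℕ) (r rT : ℝ[X]) (hr : r.degree < ((k + 1 : ℕ) : WithBot ℕ))
    (hrT : rT.degree < ((k + 1 : ℕ) : WithBot ℕ))
    (hb : ∀ j ≤ k, |nd k j * r.eval (sq k j)| ≤ 1)
    (hT : ∀ j ≤ k, nd k j * rT.eval (sq k j) = (-1 : ℝ) ^ j) :
    r.eval 0 ≤ (-1 : ℝ) ^ k * rT.eval 0 := by
  rw [eval_zero_eq k r hr, eval_zero_eq k rT hrT, Finset.mul_sum]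
  apply Finset.sum_le_sum
  intro j hj
  have hjk : j ≤ k := by have := mem_range.mp hj; omega
  have hx := nd_pos hjk
  have hM := sign_Lw hjk
  set M := (-1 : ℝ) ^ (j + k) * Lw k j with hMdef
  have hsq : ((-1 : ℝ) ^ (j + k)) * ((-1 : ℝ) ^ (j + k)) = 1 := by
    rw [← pow_add, ← two_mul, pow_mul]; simp
  have hL : Lw k j = (-1 : ℝ) ^ (j + k) * M := by
    rw [hMdef, ← mul_assoc, hsq, one_mul]
  have hTj : rT.eval (sq k j) = (-1 : ℝ) ^ j / nd k j := by
    rw [eq_div_iff hx.ne', mul_comm]; exact hT j hjk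
  have hrhs : (-1 : ℝ) ^ k * (rT.eval (sq k j) * Lw k j) = M / nd k j := by
    rw [hTj, hMdef, pow_add]; field_simp
  rw [hrhs]
  have hbj := hb j hjk
  rw [abs_mul, abs_of_pos hx] at hbj
  have habs : |r.eval (sq k j)| ≤ 1 / nd k j := by
    rw [le_div_iff₀ hx, mul_comm]; exact hbj
  have heps : r.eval (sq k j) * (-1 : ℝ) ^ (j + k) ≤ |r.eval (sq k j)| := by
    rcases neg_one_pow_eq_or ℝ (j + k) with h | h
    · rw [h, mul_one]; exact le_abs_self _
    · rw [h, mul_neg, mul_one]; exact neg_le_abs _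
  calc r.eval (sq k j) * Lw k j = (r.eval (sq k j) * (-1 : ℝ) ^ (j + k)) * M := by rw [hL]; ring
    _ ≤ (1 / nd k j) * M := mul_le_mul_of_nonneg_right (heps.trans habs) hM
    _ = M / nd k j := by ring

/-- the polynomial `r` with `t * r(t^2)` equal to the odd part of `∑ c j t^j` -/
noncomputable def oddPoly (k : ℕ) (c : ℕ → ℝ) : ℝ[X] :=
  ∑ i ∈ range (k + 1), C (c (2 * i + 1)) * X ^ i

theorem oddPoly_degree (k : ℕ) (c : ℕ → ℝ) :
    (oddPoly k c).degree < ((k + 1 : ℕ) : WithBot ℕ) := by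
  refine lt_of_le_of_lt (degree_sum_le _ _) ?_
  rw [Finset.sup_lt_iff (WithBot.bot_lt_coe _)]
  intro i hi
  refine lt_of_le_of_lt (degree_C_mul_X_pow_le _ _) ?_
  exact_mod_cast Finset.mem_range.mp hi

theorem oddPoly_eval (k : ℕ) (c : ℕ → ℝ) (s : ℝ) :
    (oddPoly k c).eval s = ∑ i ∈ range (k + 1), c (2 * i + 1) * s ^ i := by
  simp only [oddPoly, eval_finsetSum, eval_mul, eval_C, eval_pow, eval_X]

theorem oddPoly_eval_zero (k : ℕ) (c : ℕ → ℝ) : (oddPoly k c).eval 0 = c 1 := by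
  rw [oddPoly_eval, Finset.sum_range_succ']
  simp

theorem oddpart_sum (c : ℕ → ℝ) (t : ℝ) : ∀ K : ℕ,
    ∑ j ∈ range (2 * K + 1), c j * (t ^ j - (-t) ^ j)
      = 2 * t * ∑ i ∈ range K, c (2 * i + 1) * (t ^ 2) ^ i := by
  intro K
  induction K with
  | zero => simp
  | succ K ih =>
    have e : 2 * (K + 1) + 1 = 2 * K + 1 + 1 + 1 := by ring
    rw [e, Finset.sum_range_succ, Finset.sum_range_succ, ih, Finset.sum_range_succ]
    have h1 : (-t) ^ (2 * K + 1) = -t ^ (2 * K + 1) := Odd.neg_pow ⟨K, rfl⟩ t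
    have h2 : (-t) ^ (2 * K + 1 + 1) = t ^ (2 * K + 1 + 1) := Even.neg_pow ⟨K + 1, by ring⟩ t
    rw [h1, h2]
    ring

theorem odd_identity (k : ℕ) (c : ℕ → ℝ) (t : ℝ) :
    t * (oddPoly k c).eval (t ^ 2)
      = ((∑ j ∈ range (2 * k + 3), c j * t ^ j) - (∑ j ∈ range (2 * k + 3), c j * (-t) ^ j)) / 2 := by
  have h := oddpart_sum c t (k + 1)
  have e : 2 * (k + 1) + 1 = 2 * k + 3 := by ring
  rw [e] at h
  rw [oddPoly_eval, ← Finset.sum_sub_distrib]
  have : ∑ j ∈ range (2 * k + 3), (c j * t ^ j - c j * (-t) ^ j)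
      = ∑ j ∈ range (2 * k + 3), c j * (t ^ j - (-t) ^ j) := by
    apply Finset.sum_congr rfl
    intro j _
    ring
  rw [this, h]
  ring

/-- coefficients of the Chebyshev polynomial of order `2k+1` -/
noncomputable def cT (k : ℕ) (j : ℕ) : ℝ := (Chebyshev.T ℝ ((2 * k + 1 : ℕ) : ℤ)).coeff j

theorem cT_sum (k : ℕ) (t : ℝ) :
    ∑ j ∈ range (2 * k + 3), cT k j * t ^ j = (Chebyshev.T ℝ ((2 * k + 1 : ℕ) : ℤ)).eval t := by
  rw [eval_eq_sum_range' (n := 2 * k + 3)]
  · rfl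
  · rw [Chebyshev.natDegree_T]
    simp only [Int.natAbs_natCast]
    omega

theorem T_node (k j : ℕ) :
    (Chebyshev.T ℝ ((2 * k + 1 : ℕ) : ℤ)).eval (nd k j) = (-1 : ℝ) ^ j := by
  unfold nd
  rw [Chebyshev.T_real_cos]
  have : (((2 * k + 1 : ℕ) : ℤ) : ℝ) * ((j : ℝ) * Real.pi / (2 * k + 1)) = j * Real.pi := by
    push_cast
    field_simp
  rw [this, Real.cos_nat_mul_pi]

theorem T_neg (k : ℕ) (t : ℝ) :
    (Chebyshev.T ℝ ((2 * k + 1 : ℕ) : ℤ)).eval (-t)
      = -(Chebyshev.T ℝ ((2 * k + 1 : ℕ) : ℤ)).eval t := by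
  rw [Chebyshev.T_eval_neg, Int.negOnePow_odd _ ⟨k, by push_cast; ring⟩]
  simp

theorem cT_one (k : ℕ) : (-1 : ℝ) ^ k * cT k 1 ≤ 2 * k + 1 := by
  have h1 : cT k 1 = (derivative (Chebyshev.T ℝ ((2 * k + 1 : ℕ) : ℤ))).eval 0 := by
    rw [← coeff_zero_eq_eval_zero, coeff_derivative]
    simp [cT]
  rw [h1, Chebyshev.T_derivative_eq_U]
  have heven : Even (((2 * k + 1 : ℕ) : ℤ) - 1) := ⟨k, by push_cast; ring⟩
  rw [eval_mul, Chebyshev.U_eval_zero_of_even ℝ heven, eval_intCast]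
  have hk : (0 : ℝ) ≤ k := Nat.cast_nonneg k
  rcases Int.units_eq_one_or ((((2 * k + 1 : ℕ) : ℤ) - 1) / 2).negOnePow with h | h <;>
  rcases neg_one_pow_eq_or ℝ k with h' | h' <;>
  · rw [h, h']
    push_cast
    nlinarith

/-- **Bernstein inequality at the origin**, in the sharpened form for even degree bounds: a real
polynomial of degree at most `2k+2` bounded by `1` on `[-1,1]` has linear coefficient at most
`2k+1`. -/
theorem bernstein_zero (k : ℕ) (c : ℕ → ℝ)
    (hb : ∀ t : ℝ, |t| ≤ 1 → |∑ j ∈ range (2 * k + 3), c j * t ^ j| ≤ 1) :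
    c 1 ≤ 2 * k + 1 := by
  have hcmp := compare k (oddPoly k c) (oddPoly k (cT k)) (oddPoly_degree k c)
    (oddPoly_degree k (cT k))
    (by
      intro j hj
      have hx := nd_pos hj
      have hx1 := nd_le_one k j
      unfold sq
      rw [odd_identity]
      have h1 := hb (nd k j) (by rw [abs_of_pos hx]; exact hx1)
      have h2 := hb (-nd k j) (by rw [abs_neg, abs_of_pos hx]; exact hx1)
      rw [abs_le] at h1 h2 ⊢
      constructor <;> linarith [h1.1, h1.2, h2.1, h2.2])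
    (by
      intro j hj
      unfold sq
      rw [odd_identity, cT_sum, cT_sum, T_neg, T_node]
      ring)
  rw [oddPoly_eval_zero, oddPoly_eval_zero] at hcmp
  exact hcmp.trans (cT_one k)

end Vale.Agent.Helpers.BernsteinZero
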