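import Mathlib

set_option autoImplicit false

namespace Vale.Agent.Helpers.CayleySSN

open Finset
open scoped Pointwise

theorem card_union_image {α : Type*} [DecidableEq α] (g : α → α) (hg : Function.Injective g)
    (A : Finset α) :
    (A ∪ A.image g).card + (A.filter (fun a => g a ∈ A)).card = 2 * A.card := by
  have h1 := Finset.card_union_add_card_inter A (A.image g)
  have h2 : (A.image g).card = A.card := Finset.card_image_of_injective _ hg
  have h3 : A ∩ A.image g = (A.filter (fun a => g a ∈ A)).image g := by
    ext y
    simp only [mem_inter, mem_image, mem_filter]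
    constructor
    · rintro ⟨hy, a, ha, rfl⟩
      exact ⟨a, ⟨ha, hy⟩, rfl⟩
    · rintro ⟨a, ⟨ha, hy⟩, rfl⟩
      exact ⟨hy, a, ha, rfl⟩
  have h4 : (A ∩ A.image g).card = (A.filter (fun a => g a ∈ A)).card := by
    rw [h3]; exact Finset.card_image_of_injective _ hg
  omega

/-- Kemperman's inequality in a finite group: if `1` lies in both `A` and `B` and has only the
trivial representation in `A * B`, then `|A| + |B| ≤ |A * B| + 1`. -/
theorem kemperman {G : Type*} [Group G] [Fintype G] [DecidableEq G] :
    ∀ (u a : ℕ) (A B : Finset G), 2 * Fintype.card G - (A.card + B.card) = u → A.card = a →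
      (1 : G) ∈ A → (1 : G) ∈ B → (∀ x ∈ A, ∀ y ∈ B, x * y = 1 → x = 1 ∧ y = 1) →
      A.card + B.card ≤ (A * B).card + 1 := by
  intro u
  induction u using Nat.strong_induction_on with
  | _ u ihu =>
    intro a
    induction a using Nat.strong_induction_on with
    | _ a iha =>
      intro A B hu ha hA hB huniq
      by_cases hint : ∀ x ∈ A, x ∈ B → x = 1
      · -- `A ∩ B = {1}` and `A ∪ B ⊆ A * B`
        have hsub : A ∪ B ⊆ A * B := by
          intro y hy
          rcases Finset.mem_union.mp hy with h | h
          · exact Finset.mem_mul.mpr ⟨y, h, 1, hB, by simp⟩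
          · exact Finset.mem_mul.mpr ⟨1, hA, y, h, by simp⟩
        have hcap : (A ∩ B).card ≤ 1 := by
          apply Finset.card_le_one.mpr
          intro p hp q hq
          have hp' := Finset.mem_inter.mp hp
          have hq' := Finset.mem_inter.mp hq
          rw [hint p hp'.1 hp'.2, hint q hq'.1 hq'.2]
        have h1 := Finset.card_union_add_card_inter A B
        have h2 := Finset.card_le_card hsub
        omega
      · push Not at hint
        obtain ⟨x, hxA, hxB, hx1⟩ := hint
        set A1 := A ∪ A.image (fun p => p * x) with hA1
        set B1 := B.filter (fun q => x * q ∈ B) with hB1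
        set A2 := A.filter (fun p => p * x ∈ A) with hA2
        set B2 := B ∪ B.image (fun q => x * q) with hB2
        have hcA : A1.card + A2.card = 2 * A.card :=
          card_union_image (fun p => p * x) (mul_left_injective x) A
        have hcB : B2.card + B1.card = 2 * B.card :=
          card_union_image (fun q => x * q) (mul_right_injective x) B
        have hsub1 : A1 * B1 ⊆ A * B := by
          intro y hy
          obtain ⟨p, hp, q, hq, rfl⟩ := Finset.mem_mul.mp hy
          obtain ⟨hqB, hxq⟩ := Finset.mem_filter.mp hq
          rcases Finset.mem_union.mp hp with h | h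
          · exact Finset.mem_mul.mpr ⟨p, h, q, hqB, rfl⟩
          · obtain ⟨p', hp', rfl⟩ := Finset.mem_image.mp h
            exact Finset.mem_mul.mpr ⟨p', hp', x * q, hxq, by group⟩
        have hsub2 : A2 * B2 ⊆ A * B := by
          intro y hy
          obtain ⟨p, hp, q, hq, rfl⟩ := Finset.mem_mul.mp hy
          obtain ⟨hpA, hpx⟩ := Finset.mem_filter.mp hp
          rcases Finset.mem_union.mp hq with h | h
          · exact Finset.mem_mul.mpr ⟨p, hpA, q, h, rfl⟩
          · obtain ⟨q', hq', rfl⟩ := Finset.mem_image.mp h
            exact Finset.mem_mul.mpr ⟨p * x, hpx, q', hq', by group⟩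
        have h1A1 : (1 : G) ∈ A1 := Finset.mem_union_left _ hA
        have h1B1 : (1 : G) ∈ B1 := Finset.mem_filter.mpr ⟨hB, by simpa using hxB⟩
        have h1A2 : (1 : G) ∈ A2 := Finset.mem_filter.mpr ⟨hA, by simpa using hxA⟩
        have h1B2 : (1 : G) ∈ B2 := Finset.mem_union_left _ hB
        have huniq1 : ∀ p ∈ A1, ∀ q ∈ B1, p * q = 1 → p = 1 ∧ q = 1 := by
          intro p hp q hq hpq
          obtain ⟨hqB, hxq⟩ := Finset.mem_filter.mp hq
          rcases Finset.mem_union.mp hp with h | h
          · exact huniq p h q hqB hpq
          · exfalso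
            obtain ⟨p', hp', rfl⟩ := Finset.mem_image.mp h
            have h3 : p' * (x * q) = 1 := by rw [← mul_assoc]; exact hpq
            have h4 := (huniq p' hp' (x * q) hxq h3).2
            exact hx1 (huniq x hxA q hqB h4).1
        have huniq2 : ∀ p ∈ A2, ∀ q ∈ B2, p * q = 1 → p = 1 ∧ q = 1 := by
          intro p hp q hq hpq
          obtain ⟨hpA, hpx⟩ := Finset.mem_filter.mp hp
          rcases Finset.mem_union.mp hq with h | h
          · exact huniq p hpA q h hpq
          · exfalso
            obtain ⟨q', hq', rfl⟩ := Finset.mem_image.mp h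
            have h3 : (p * x) * q' = 1 := by rw [mul_assoc]; exact hpq
            have h4 := (huniq (p * x) hpx q' hq' h3).1
            exact hx1 (huniq p hpA x hxB h4).2
        have hA2lt : A2.card < A.card := by
          apply Finset.card_lt_card
          refine ⟨Finset.filter_subset _ _, ?_⟩
          intro hAA
          have hstab : ∀ p ∈ A, p * x ∈ A := fun p hp => (Finset.mem_filter.mp (hAA hp)).2
          have hk : ∀ k : ℕ, x ^ k ∈ A := by
            intro k
            induction k with
            | zero => simpa using hA
            | succ k ihk =>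
              rw [pow_succ]
              exact hstab _ ihk
          have hpos : 0 < orderOf x := orderOf_pos x
          have h5 : x ^ (orderOf x - 1) * x = 1 := by
            rw [← pow_succ, Nat.sub_add_cancel hpos, pow_orderOf_eq_one]
          exact hx1 (huniq _ (hk _) x hxB h5).2
        have hle1 : (A1 * B1).card ≤ (A * B).card := Finset.card_le_card hsub1
        have hle2 : (A2 * B2).card ≤ (A * B).card := Finset.card_le_card hsub2
        have hbA1 : A1.card ≤ Fintype.card G := Finset.card_le_univ _
        have hbB1 : B1.card ≤ Fintype.card G := Finset.card_le_univ _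
        have hbA2 : A2.card ≤ Fintype.card G := Finset.card_le_univ _
        have hbB2 : B2.card ≤ Fintype.card G := Finset.card_le_univ _
        by_cases hc1 : A.card + B.card < A1.card + B1.card
        · have := ihu (2 * Fintype.card G - (A1.card + B1.card)) (by omega) A1.card A1 B1 rfl rfl
            h1A1 h1B1 huniq1
          omega
        · by_cases hc2 : A.card + B.card < A2.card + B2.card
          · have := ihu (2 * Fintype.card G - (A2.card + B2.card)) (by omega) A2.card A2 B2 rfl rfl
              h1A2 h1B2 huniq2
            omega
          · have heq : A2.card + B2.card = A.card + B.card := by omega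
            have := iha A2.card (by omega) A2 B2 (by omega) rfl h1A2 h1B2 huniq2
            omega

open Classical in
/-- First out-neighbourhood of `v` in the digraph with arc relation `adj`. -/
noncomputable def N1 {V : Type*} [Fintype V] (adj : V → V → Prop) (v : V) : Finset V :=
  Finset.univ.filter (fun u => adj v u)

open Classical in
/-- Second out-neighbourhood of `v`: vertices at directed distance exactly two from `v`. -/
noncomputable def N2 {V : Type*} [Fintype V] (adj : V → V → Prop) (v : V) : Finset V :=
  Finset.univ.filter (fun w => w ≠ v ∧ ¬ adj v w ∧ ∃ u, adj v u ∧ adj u w)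

/-- Seymour's second neighbourhood conjecture holds, at every vertex, for every Cayley digraph on a
finite group (abelian or not) that is an oriented graph. -/
theorem cayley {G : Type*} [Group G] [Fintype G] (S : Finset G)
    (h0 : (1 : G) ∉ S) (hanti : ∀ s ∈ S, s⁻¹ ∉ S) :
    (∀ x : G, ¬ (x⁻¹ * x ∈ S)) ∧ (∀ x y : G, x⁻¹ * y ∈ S → ¬ (y⁻¹ * x ∈ S)) ∧
    ∀ v : G, (N1 (fun x y : G => x⁻¹ * y ∈ S) v).card ≤ (N2 (fun x y : G => x⁻¹ * y ∈ S) v).card := by
  classical
  refine ⟨?_, ?_, ?_⟩
  · intro x; simpa using h0
  · intro x y hxy hyx
    apply hanti _ hxy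
    simpa using hyx
  · intro v
    set T : Finset G := insert 1 S with hT
    have hTcard : T.card = S.card + 1 := Finset.card_insert_of_notMem h0
    have h0T : (1 : G) ∈ T := Finset.mem_insert_self _ _
    have huniq : ∀ a ∈ T, ∀ b ∈ T, a * b = 1 → a = 1 ∧ b = 1 := by
      intro a ha b hb hab
      rcases Finset.mem_insert.mp ha with ha0 | haS
      · subst ha0
        exact ⟨rfl, by simpa using hab⟩
      · rcases Finset.mem_insert.mp hb with hb0 | hbS
        · subst hb0
          exact ⟨by simpa using hab, rfl⟩
        · exfalso
          apply hanti a haS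
          have : a⁻¹ = b := inv_eq_of_mul_eq_one_right hab
          rw [this]; exact hbS
    have hsch := kemperman _ _ T T rfl rfl h0T h0T huniq
    have hTsub : T ⊆ T * T := by
      intro a ha
      exact Finset.mem_mul.mpr ⟨a, ha, 1, h0T, by simp⟩
    have hsd : ((T * T) \ T).card = (T * T).card - T.card := Finset.card_sdiff_of_subset hTsub
    have hbig : S.card ≤ ((T * T) \ T).card := by omega
    have hN1 : (N1 (fun x y : G => x⁻¹ * y ∈ S) v).card = S.card := by
      have : N1 (fun x y : G => x⁻¹ * y ∈ S) v = S.image (fun s => v * s) := by
        ext u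
        simp only [N1, Finset.mem_filter, Finset.mem_univ, true_and, Finset.mem_image]
        constructor
        · intro hu
          exact ⟨v⁻¹ * u, hu, by group⟩
        · rintro ⟨s, hs, rfl⟩
          simpa using hs
      rw [this]
      exact Finset.card_image_of_injective _ (mul_right_injective v)
    have hN2 : (((T * T) \ T).image (fun s => v * s)) ⊆ N2 (fun x y : G => x⁻¹ * y ∈ S) v := by
      intro w hw
      obtain ⟨t, ht, rfl⟩ := Finset.mem_image.mp hw
      obtain ⟨htT, htn⟩ := Finset.mem_sdiff.mp ht
      obtain ⟨a, ha, b, hb, hab⟩ := Finset.mem_mul.mp htT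
      have haS : a ∈ S := by
        rcases Finset.mem_insert.mp ha with ha0 | haS
        · exfalso; apply htn; rw [← hab, ha0]; simpa using hb
        · exact haS
      have hbS : b ∈ S := by
        rcases Finset.mem_insert.mp hb with hb0 | hbS
        · exfalso; apply htn; rw [← hab, hb0]; simpa using ha
        · exact hbS
      simp only [N2, Finset.mem_filter, Finset.mem_univ, true_and]
      refine ⟨?_, ?_, v * a, ?_, ?_⟩
      · intro hv
        apply htn
        have : t = 1 := by simpa using hv
        rw [this]; exact h0T
      · intro hv
        apply htn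
        have : t ∈ S := by simpa using hv
        exact Finset.mem_insert_of_mem this
      · simpa using haS
      · have : (v * a)⁻¹ * (v * t) = b := by rw [← hab]; group
        rw [this]; exact hbS
    calc (N1 (fun x y : G => x⁻¹ * y ∈ S) v).card = S.card := hN1
      _ ≤ ((T * T) \ T).card := hbig
      _ = (((T * T) \ T).image (fun s => v * s)).card :=
          (Finset.card_image_of_injective _ (mul_right_injective v)).symm
      _ ≤ (N2 (fun x y : G => x⁻¹ * y ∈ S) v).card := Finset.card_le_card hN2

end Vale.Agent.Helpers.CayleySSN
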